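import Vale.Agent.P060.AlphaTwo

/-!
P060: Hadwiger's conjecture for dense graphs with a moderately large matching of non-edges, in
particular for regular graphs of degree at least `n - c n^(3/4)`; and clique minors of half the order for
dense graphs with independence number at most two.
-/

namespace Vale.Agent.Results.P060.DenseRegular

theorem result : ∀ (V : Type) [Fintype V] (G : SimpleGraph V) (D : ℕ),
    (∀ v, {u | u ≠ v ∧ ¬G.Adj v u}.ncard ≤ D) →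
    (((∃ (k : ℕ) (a b : Fin k → V), Function.Injective (Sum.elim a b) ∧
        (∀ i, ¬G.Adj (a i) (b i)) ∧ (64 ^ 3 * D ^ 4 ≤ k ^ 3 ∨ 9 * D ^ 2 ≤ k)) ∨
      ((∀ v, ∃ u, u ≠ v ∧ ¬G.Adj v u) ∧
        (256 ^ 3 * D ^ 7 ≤ Fintype.card V ^ 3 ∨ 36 * D ^ 3 ≤ Fintype.card V)) ∨
      ((∀ v, D ≤ 2 * {u | u ≠ v ∧ ¬G.Adj v u}.ncard) ∧
        512 ^ 3 * D ^ 4 ≤ Fintype.card V ^ 3)) →
    ∃ t : ℕ, G.Colorable t ∧ ∃ B : Fin t → Finset V,
      (∀ i, (B i).Nonempty ∧ (G.induce (B i : Set V)).Connected) ∧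
      ∀ i j, i ≠ j → Disjoint (B i) (B j) ∧ ∃ u ∈ B i, ∃ v ∈ B j, G.Adj u v) ∧
    ((∀ x y z : V, x ≠ y → x ≠ z → y ≠ z → G.Adj x y ∨ G.Adj x z ∨ G.Adj y z) →
      256 ^ 3 * D ^ 4 ≤ Fintype.card V ^ 3 →
    ∃ t : ℕ, Fintype.card V ≤ 2 * t ∧ ∃ B : Fin t → Finset V,
      (∀ i, (B i).Nonempty ∧ (G.induce (B i : Set V)).Connected) ∧
      ∀ i j, i ≠ j → Disjoint (B i) (B j) ∧ ∃ u ∈ B i, ∃ v ∈ B j, G.Adj u v) := by
  intro V _ G D hdeg
  classical
  have hc : ∀ v, {u | u ≠ v ∧ ¬G.Adj v u}.ncard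
      = (Finset.univ.filter fun u => u ≠ v ∧ ¬G.Adj v u).card := by
    intro v
    rw [← Set.ncard_coe_finset]
    congr 1
    ext u
    simp
  refine ⟨fun h => ?_, fun hα hn => _root_.P060.half_minor G D
    (fun v => by have h1 := hdeg v; rw [hc] at h1; convert h1) hα hn⟩
  simp only [hc] at hdeg h
  rcases h with ⟨k, a, b, hinj, hab, hk | hk⟩ | ⟨hno, hn | hn⟩ | ⟨hhalf, hn⟩
  · exact _root_.P060.hadwiger_of_matching G D (fun v => by convert hdeg v) (Or.inl ⟨k, a, b, hinj, hab, hk⟩)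
  · exact _root_.P060.hadwiger_dense G D (fun v => by convert hdeg v) (Or.inl ⟨k, a, b, hinj, hab, hk⟩)
  · exact _root_.P060.hadwiger_of_matching G D (fun v => by convert hdeg v) (Or.inr (Or.inl ⟨hno, hn⟩))
  · exact _root_.P060.hadwiger_dense G D (fun v => by convert hdeg v) (Or.inr ⟨hno, hn⟩)
  · exact _root_.P060.hadwiger_of_matching G D (fun v => by convert hdeg v)
      (Or.inr (Or.inr ⟨fun v => by convert hhalf v, hn⟩))

end Vale.Agent.Results.P060.DenseRegular
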